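import Vale.Agent.P281.H723.KD.BK
import Vale.Agent.P281.H167.LC.Iface

/-! P281, log canonical pairs, row LC1: the Bochner inequality for the volume form with exponents
`(1 - η) Δ i`. -/

open scoped Manifold ContDiff ComplexOrder Topology Matrix
open Filter Vale.Agent.P272.K Vale.Agent.P272.K.AMP Vale.Agent.P299
open Vale.Agent.P299.H954 Vale.Agent.P299.H882
open Vale.Agent.P272.K.INT (IsClosedForm)

set_option linter.all false

noncomputable section

namespace Vale.Agent.P281.H723.LC

open Vale.Agent.P281.H723.KD Vale.Agent.P281.H713.KD Vale.Agent.P281.H167.LC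
open Vale.Agent.P281.H167.GM (phiD)

section alg

variable {n M p : ℕ} {g χ D R : Matrix (Fin n) (Fin n) ℂ} {b : Matrix (Fin p) (Fin n) ℂ}

/-- the error term: `tr_b (D - R) ≤ tr_g D + 2 C tr_g χ` -/
theorem B_diff_le (hg : g.PosDef) (hχ : χ.PosDef) (hb : (gm b g).det ≠ 0) {C f : ℝ} (hC : 0 ≤ C)
    (hf0 : 0 ≤ f) (hf1 : f ≤ 1) (hD : (D + ((C * f : ℝ) : ℂ) • χ).PosSemidef)
    (hR : ((C : ℂ) • χ + R).PosSemidef) :
    B b g (D - R) ≤ T g D + 2 * C * T g χ := by
  have hX0 : 0 ≤ T g χ := T_nonneg hg hχ.posSemidef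
  have hBX0 : 0 ≤ B b g χ := trb_nonneg hg hχ.posSemidef
  have hBX1 : B b g χ ≤ T g χ := trb_le hg hb hχ.posSemidef
  have e1 : B b g (D + ((C * f : ℝ) : ℂ) • χ) ≤ T g (D + ((C * f : ℝ) : ℂ) • χ) := trb_le hg hb hD
  have e2 : 0 ≤ B b g ((C : ℂ) • χ + R) := trb_nonneg hg hR
  rw [B_add, B_smul, T_add, T_smul] at e1
  rw [B_add, B_smul] at e2
  rw [B_sub]
  have e3 : C * f * T g χ ≤ C * 1 * T g χ :=
    mul_le_mul_of_nonneg_right (mul_le_mul_of_nonneg_left hf1 hC) hX0
  have e4 : 0 ≤ C * f * B b g χ := mul_nonneg (mul_nonneg hC hf0) hBX0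
  have e5 : C * B b g χ ≤ C * T g χ := mul_le_mul_of_nonneg_left hBX1 hC
  linarith

end alg

/-- **Row LC1**. -/
theorem bochPartE (hBdP : BdPart) : BochPartE := by
  intro n M X _ _ _ _ _ _ χ hχ φ hφ m hm ρ hρ hρ0 Dv r R hBd dl hdl C hC hcurv p μ K hK N₀ N₁ hdec
  obtain ⟨hrs, ⟨C₀, hC₀, hB⟩, -⟩ := hBdP n M X χ hχ Dv r R hBd
  obtain ⟨𝒪, h𝒪, hgood⟩ := hdec.good
  have hr0 := r_nonneg hBd
  refine ⟨2 * C₀, by positivity, fun a ha => ?_⟩
  obtain ⟨Ca, hCa⟩ := hgood a ha
  set Cb : ℝ := max Ca 0 with hCb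
  have hCb0 : 0 ≤ Cb := le_max_right _ _
  have hCi : ∀ i, 0 ≤ μ * dl i * C₀ + K i * Cb := fun i =>
    add_nonneg (mul_nonneg (mul_nonneg (Nat.cast_nonneg _) (hdl i)) hC₀)
      (mul_nonneg (Nat.cast_nonneg _) hCb0)
  refine ⟨∑ i, (μ * dl i * C₀ + K i * Cb), Finset.sum_nonneg fun i _ => hCi i, ?_⟩
  intro β hβc hβ0 hβ1 δ ε η hδ hε hε1 hη g c hg hvol N hN
  have hgH := hg.toIsHermitian
  have hNs : SmoothFn (n := n) (N g) := by
    rcases hN with rfl | rfl
    · exact (hdec.smooth g hg).1
    · exact (hdec.smooth g hg).2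
  have hN0 : ∀ x, 0 ≤ N g x := by
    intro x
    rcases hN with rfl | rfl
    · exact (hdec.nonneg g x hg).1
    · exact (hdec.nonneg g x hg).2
  set S : X → ℝ := fun x => N g x * ∏ i, (r i x + ε)⁻¹ ^ K i with hS
  have hrε : ∀ i x, 0 < r i x + ε := fun i x => by have := hr0 i x; linarith
  have hSs : SmoothFn (n := n) S := by
    intro e x hx
    refine (hNs e x hx).mul (contDiffAt_prod fun i _ => ContDiffAt.pow (ContDiffAt.inv
      ((hrs i e x hx).add contDiffAt_const) ?_) _)
    exact (hrε i _).ne'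
  have hS0 : ∀ x, 0 ≤ S x := fun x => mul_nonneg (hN0 x)
    (Finset.prod_nonneg fun i _ => pow_nonneg (inv_nonneg.2 (hrε i x).le) _)
  have hRc := hBd.closed
  have hcK : IsClosedForm (curvK φ m ρ δ dl R) := isClosed_curvK hφ hρ hρ0 hδ hRc
  have hcD : ∀ i, IsClosedForm (dF (r i) (R i) ε) := fun i =>
    isClosed_dF (hrs i) (hr0 i) hε (hRc i)
  have hcχ : IsClosedForm χ := isClosedForm_of_kahler hχ
  have hρδ : ∀ x, 0 < ρ x + δ := fun x => by have := hρ0 x; linarith
  have hcρ : Continuous ρ := INT.SmoothFn.continuous hρ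
  have hcr : ∀ i, Continuous (r i) := fun i => INT.SmoothFn.continuous (hrs i)
  set τ : X → ℝ := fun x => μ * (trX g (curvK φ m ρ δ dl R) x + C * (δ / (ρ x + δ)) *
      trX g χ x) + (∑ i, (μ * dl i * C₀ + K i * Cb)) * ∑ i, ε / (r i x + ε) * trX g χ x +
      β x * (∑ i, if K i = 0 then 0 else K i * (trX g (dF (r i) (R i) ε) x +
        2 * C₀ * trX g χ x)) +
      μ * ∑ i, η * dl i * (trX g (dF (r i) (R i) ε) x + 2 * C₀ * trX g χ x)
    with hτ
  have hτc : Continuous τ := by
    have k1 := cont_trX hgH hcK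
    have k2 := cont_trX hgH hcχ
    have k3 : Continuous fun x => δ / (ρ x + δ) :=
      continuous_const.div (hcρ.add continuous_const) fun x => (hρδ x).ne'
    have k4 : Continuous fun x => ∑ i, ε / (r i x + ε) * trX g χ x :=
      continuous_finset_sum _ fun i _ => (continuous_const.div ((hcr i).add continuous_const)
        fun x => (hrε i x).ne').mul k2
    have k5 : Continuous fun x => ∑ i, if K i = 0 then (0 : ℝ) else
        K i * (trX g (dF (r i) (R i) ε) x + 2 * C₀ * trX g χ x) := by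
      refine continuous_finset_sum _ fun i _ => ?_
      by_cases hi : K i = 0
      · simp only [hi, if_true]
        exact continuous_const
      · simp only [hi, if_false]
        exact continuous_const.mul ((cont_trX hgH (hcD i)).add (continuous_const.mul k2))
    have k6 : Continuous fun x => ∑ i, η * dl i * (trX g (dF (r i) (R i) ε) x +
        2 * C₀ * trX g χ x) :=
      continuous_finset_sum _ fun i _ =>
        continuous_const.mul ((cont_trX hgH (hcD i)).add (continuous_const.mul k2))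
    exact (((continuous_const.mul (k1.add ((continuous_const.mul k3).mul k2))).add
      (continuous_const.mul k4)).add (hβc.mul k5)).add (continuous_const.mul k6)
  show BochF g τ S
  have hSc : Continuous S := INT.SmoothFn.continuous hSs
  have hgc : Continuous (gradX g S S) := INT.SmoothFn.continuous (smoothFn_gradX hgH hSs hSs)
  have hlc : Continuous (lapX g S) := INT.SmoothFn.continuous (smoothFn_lapX hgH hSs)
  have key : ∀ x ∈ 𝒪, gradX g S S x ≤ S x * lapX g S x + τ x * S x ^ 2 := by
    intro x hxO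
    rcases (hS0 x).eq_or_lt with h0 | h0
    · rw [gradX_zero hgH hSs hS0 h0.symm, ← h0]
      simp
    obtain ⟨hrp, e, b, c₀, c₁, hx, hb, hc₀, hc₁, hloc, hq⟩ := hCa x hxO
    have hgP := hg.posDef e x hx
    have hχP := hχ.posDef e x hx
    -- the local form of `S`
    obtain ⟨cc, hcc, hlocS⟩ : ∃ cc : Cm n → ℂ, AnalyticAt ℂ cc (e x) ∧
        ∀ᶠ z in 𝓝 (e x), S (e.symm z) = ‖cc z‖ ^ 2 * (∏ i, r i (e.symm z) ^ K i) *
          gramD (b z) (g e z) ^ μ * ∏ i, (r i (e.symm z) + ε)⁻¹ ^ K i := by
      rcases hN with rfl | rfl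
      · refine ⟨c₀, hc₀, ?_⟩
        filter_upwards [hloc g hg] with z hz
        simp only [hS]
        rw [hz.1]
      · refine ⟨c₁, hc₁, ?_⟩
        filter_upwards [hloc g hg] with z hz
        simp only [hS]
        rw [hz.2]
    obtain ⟨hdet, hL⟩ := cHess_log_S hBd hrs hx hrp hε hg hcc hb hSs h0 hlocS
    -- reduction to `Δ log S ≥ - τ`
    suffices hmain : -τ x ≤
        ((g e (e x))⁻¹ * cHess (fun z => Real.log (S (e.symm z))) (e x)).trace.re by
      have hsx : S (e.symm (e x)) = S x := by rw [hx.left_inv]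
      have h2 : ContDiffAt ℝ 2 (fun z => S (e.symm z)) (e x) := (hSs e x hx).of_le (by norm_cast)
      have e1 : cHess (fun z => Real.log (S (e.symm z))) (e x) =
          (((S x)⁻¹ : ℝ) : ℂ) • hess S e (e x) - (((S x ^ 2)⁻¹ : ℝ) : ℂ) • dd S S e (e x) := by
        ext k l
        rw [C2.cHess_log h2 (by rw [hsx]; exact h0) k l, hsx]
        simp only [Matrix.sub_apply, Matrix.smul_apply, smul_eq_mul, hess, dd, Matrix.of_apply]
        push_cast
        rfl
      have e2 : ((g e (e x))⁻¹ * cHess (fun z => Real.log (S (e.symm z))) (e x)).trace.re =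
          (S x)⁻¹ * lapX g S x - (S x ^ 2)⁻¹ * gradX g S S x := by
        rw [e1, lapX_eq hgH hSs hx, gradX_eq hgH hSs hSs hx, Matrix.mul_sub, Matrix.mul_smul,
          Matrix.mul_smul, Matrix.trace_sub, Matrix.trace_smul, Matrix.trace_smul, Complex.sub_re,
          smul_eq_mul, smul_eq_mul, Complex.re_ofReal_mul, Complex.re_ofReal_mul]
        rfl
      rw [e2] at hmain
      have e3 := mul_le_mul_of_nonneg_left hmain (by positivity : (0 : ℝ) ≤ S x ^ 2)
      have e4 : S x ^ 2 * ((S x)⁻¹ * lapX g S x - (S x ^ 2)⁻¹ * gradX g S S x) =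
          S x * lapX g S x - gradX g S S x := by
        field_simp
      rw [e4] at e3
      linarith
    -- values at `x` in the chart `e`
    have t1 : trX g χ x = T (g e (e x)) (χ e (e x)) := trX_eq hgH hcχ.form hx
    have t2 : trX g (curvK φ m ρ δ dl R) x = T (g e (e x)) (curvK φ m ρ δ dl R e (e x)) :=
      trX_eq hgH hcK.form hx
    have t3 : ∀ i, trX g (dF (r i) (R i) ε) x = T (g e (e x)) (dF (r i) (R i) ε e (e x)) :=
      fun i => trX_eq hgH (hcD i).form hx
    have hX0 : 0 ≤ T (g e (e x)) (χ e (e x)) := T_nonneg hgP hχP.posSemidef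
    have hf0 : ∀ i, 0 ≤ ε / (r i x + ε) := fun i => div_nonneg hε.le (hrε i x).le
    have hf1 : ∀ i, ε / (r i x + ε) ≤ 1 := fun i => by
      rw [div_le_one (hrε i x)]
      linarith [hr0 i x]
    have hCle : ∑ i, (μ * dl i * C₀ + K i * Cb) * (ε / (r i x + ε) * T (g e (e x)) (χ e (e x))) ≤
        (∑ i, (μ * dl i * C₀ + K i * Cb)) * ∑ i, ε / (r i x + ε) * trX g χ x := by
      rw [t1, Finset.sum_mul]
      refine Finset.sum_le_sum fun i _ => mul_le_mul_of_nonneg_left ?_ (hCi i)
      exact Finset.single_le_sum (f := fun i => ε / (r i x + ε) * T (g e (e x)) (χ e (e x)))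
        (fun j _ => mul_nonneg (hf0 j) hX0) (Finset.mem_univ i)
    refine le_trans ?_ hL
    by_cases hμ : μ = 0
    · have hK0 : ∀ i, K i = 0 := by
        intro i
        have := hK i
        rw [hμ] at this
        simp only [Nat.cast_zero, zero_mul] at this
        exact_mod_cast le_antisymm this (Nat.cast_nonneg _)
      have z1 : (μ : ℝ) * (trb (b (e x)) (g e (e x)) (D.ric g e (e x))).re -
          ∑ i, K i * trE g (dF (r i) (R i) ε) e (e x) = 0 := by
        rw [hμ]
        simp [hK0]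
      rw [z1, hτ]
      have z2 : 0 ≤ (∑ i, (μ * dl i * C₀ + K i * Cb)) * ∑ i, ε / (r i x + ε) * trX g χ x := by
        refine mul_nonneg (Finset.sum_nonneg fun i _ => hCi i) (Finset.sum_nonneg fun i _ => ?_)
        rw [t1]
        exact mul_nonneg (hf0 i) hX0
      have z3 : ∑ i, (if K i = 0 then (0 : ℝ) else
          K i * (trX g (dF (r i) (R i) ε) x + 2 * C₀ * trX g χ x)) = 0 := by
        refine Finset.sum_eq_zero fun i _ => ?_
        rw [if_pos (hK0 i)]
      simp only [z3, mul_zero, add_zero]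
      rw [hμ] at z2 ⊢
      simp only [Nat.cast_zero, zero_mul, zero_add] at z2 ⊢
      linarith
    · have hdet' := hdet hμ
      -- the Ricci form
      have hric : D.ric g e (e x) = -curvK φ m ρ δ dl R e (e x) +
          ∑ i, ((dl i : ℝ) : ℂ) • dF (r i) (R i) ε e (e x) -
          ∑ i, ((η * dl i : ℝ) : ℂ) • (dF (r i) (R i) ε e (e x) - R i e (e x)) := by
        have e1 : (fun z => Real.log (g e z).det.re) =ᶠ[𝓝 (e x)]
            fun z => (phiD φ m ρ δ e z - ∑ i, (1 - η) * dl i *
              Real.log (r i (e.symm z) + ε)) + c := by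
          filter_upwards [eventually_at hx] with z hz
          have := hvol e _ hz.1
          rw [hz.2] at this
          exact this
        have s1 : ContDiffAt ℝ 2 (phiD φ m ρ δ e) (e x) :=
          ((Vale.Agent.P281.H167.GM.isCanonical_phiD (m := m) hφ hρ hρ0 hδ).smooth e x hx).of_le
            (by norm_cast)
        have s2 : ∀ i, ContDiffAt ℝ 2 (fun z => Real.log (r i (e.symm z) + ε)) (e x) := fun i =>
          (((hrs i e x hx).of_le (by norm_cast)).add contDiffAt_const).log (hrε i _).ne'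
        have s3 : ∀ i ∈ (Finset.univ : Finset (Fin M)),
            ContDiffAt ℝ 2 (fun z => (1 - η) * dl i * Real.log (r i (e.symm z) + ε)) (e x) := fun i _ =>
          contDiffAt_const.mul (s2 i)
        have s4 : ContDiffAt ℝ 2 (fun z => ∑ i, (1 - η) * dl i *
            Real.log (r i (e.symm z) + ε)) (e x) :=
          ContDiffAt.sum s3
        show -cHess (fun z => Real.log (g e z).det.re) (e x) = _
        rw [C2.cHess_congr e1, C2.cHess_add (s1.sub s4) contDiffAt_const, C2.cHess_const, add_zero,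
          C2.cHess_sub s1 s4, cHess_sum _ s3]
        have s5 : ∀ i, cHess (fun z => (1 - η) * dl i * Real.log (r i (e.symm z) + ε)) (e x) =
            ((dl i : ℝ) : ℂ) • cHess (fun z => Real.log (r i (e.symm z) + ε)) (e x) -
            ((η * dl i : ℝ) : ℂ) • cHess (fun z => Real.log (r i (e.symm z) + ε)) (e x) := by
          intro i
          rw [C2.cHess_const_mul ((1 - η) * dl i) (s2 i), ← sub_smul]
          congr 1
          push_cast
          ring
        simp only [s5, curvK, dF, smul_add, add_sub_cancel_right, Finset.sum_add_distrib,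
          Finset.sum_sub_distrib]
        abel
      have hpi := point_ineq (μ := μ) (f := fun i => ε / (r i x + ε)) (β := β x)
        (t := C * (δ / (ρ x + δ))) (C₀ := C₀) (Ca := Cb) (dl := dl) (K := K)
        (Θ := curvK φ m ρ δ dl R e (e x)) (Dm := fun i => dF (r i) (R i) ε e (e x))
        hgP hχP hdet' hK hC₀ hCb0 hf0 hf1
        (mul_nonneg hC (div_nonneg hδ.le (hρδ x).le)) (hβ0 x) (hcurv δ hδ e x hx)
        (fun i => ((hB i e x hx).2.2 ε hε hε1).1)
        (by
          by_cases haa : a ≤ N₀ χ x + N₁ χ x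
          · right
            intro i hi
            obtain ⟨l, hl⟩ := hq haa i hi
            exact ⟨xi (fun y => Real.log (r i y)) e (e x), l,
              ((hB i e x hx).2.2 ε hε hε1).2.2 (hrp i), hl.trans (le_max_left _ _)⟩
          · left
            exact hβ1 x (not_le.1 haa))
      have herr : ∀ i, η * dl i * B (b (e x)) (g e (e x)) (dF (r i) (R i) ε e (e x) -
          R i e (e x)) ≤ η * dl i * (T (g e (e x)) (dF (r i) (R i) ε e (e x)) +
          2 * C₀ * T (g e (e x)) (χ e (e x))) := fun i =>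
        mul_le_mul_of_nonneg_left (B_diff_le hgP hχP hdet' hC₀ (hf0 i) (hf1 i)
          ((hB i e x hx).2.2 ε hε hε1).1 (hB i e x hx).2.1) (mul_nonneg hη (hdl i))
      have herrs := mul_le_mul_of_nonneg_left (Finset.sum_le_sum fun i
        (_ : i ∈ (Finset.univ : Finset (Fin M))) => herr i) (Nat.cast_nonneg (α := ℝ) μ)
      have hBsum : (μ : ℝ) * (trb (b (e x)) (g e (e x)) (-curvK φ m ρ δ dl R e (e x) +
          ∑ i, ((dl i : ℝ) : ℂ) • dF (r i) (R i) ε e (e x) -
          ∑ i, ((η * dl i : ℝ) : ℂ) • (dF (r i) (R i) ε e (e x) - R i e (e x)))).re =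
          μ * B (b (e x)) (g e (e x)) (-curvK φ m ρ δ dl R e (e x) +
            ∑ i, ((dl i : ℝ) : ℂ) • dF (r i) (R i) ε e (e x)) -
          μ * ∑ i, η * dl i * B (b (e x)) (g e (e x)) (dF (r i) (R i) ε e (e x) -
            R i e (e x)) := by
        have q1 := B_sub (b := b (e x)) (g := g e (e x)) (-curvK φ m ρ δ dl R e (e x) +
          ∑ i, ((dl i : ℝ) : ℂ) • dF (r i) (R i) ε e (e x))
          (∑ i, ((η * dl i : ℝ) : ℂ) • (dF (r i) (R i) ε e (e x) - R i e (e x)))
        rw [B_sum] at q1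
        simp only [B_smul] at q1
        rw [← mul_sub, ← q1]
        rfl
      have hβle : β x * (∑ i, if K i = 0 then 0 else K i * (T (g e (e x))
          (dF (r i) (R i) ε e (e x)) + C₀ * T (g e (e x)) (χ e (e x)))) ≤
          β x * (∑ i, if K i = 0 then 0 else K i * (T (g e (e x))
          (dF (r i) (R i) ε e (e x)) + 2 * C₀ * T (g e (e x)) (χ e (e x)))) := by
        refine mul_le_mul_of_nonneg_left (Finset.sum_le_sum fun i _ => ?_) (hβ0 x)
        by_cases hi : K i = 0
        · simp only [hi, if_true]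
          exact le_rfl
        · simp only [hi, if_false]
          refine mul_le_mul_of_nonneg_left ?_ (Nat.cast_nonneg _)
          have := mul_nonneg hC₀ hX0
          linarith
      rw [hric, hBsum]
      simp only [hτ, t1, t2, t3] at hCle ⊢
      have e9 : ∑ i, (K i : ℝ) * trE g (dF (r i) (R i) ε) e (e x) =
          ∑ i, (K i : ℝ) * T (g e (e x)) (dF (r i) (R i) ε e (e x)) := rfl
      rw [e9]
      linarith
  intro x
  have hx : x ∈ closure 𝒪 := h𝒪 x
  have hcl : IsClosed {x | gradX g S S x ≤ S x * lapX g S x + τ x * S x ^ 2} :=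
    isClosed_le hgc ((hSc.mul hlc).add (hτc.mul (hSc.pow 2)))
  exact closure_minimal (fun y hy => key y hy) hcl hx

end Vale.Agent.P281.H723.LC
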